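import Vale.Agent.P183.UpperBounded
import Vale.Agent.P183.Duality
import Vale.Agent.P183.Subsemilattice

/-!
Every finite lattice that is upper bounded or lower bounded is representable.
-/

namespace Vale.Agent.Results.P183.BoundedLattices

open Vale.Agent.P183

theorem result :
    (∀ (L : Type) [Lattice L] [Fintype L] [Nonempty L],
      NoDepCycle L → Representable L ∧ Representable Lᵒᵈ) ∧
    (∀ (L M : Type) [Lattice L] [Fintype L] [Nonempty L] [SemilatticeInf M] [Finite M]
      (f : L → Set M), Function.Injective f → (∀ a, InfClosed (f a)) →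
      (∀ a b, f (a ⊓ b) = f a ∩ f b) → (∀ a b, f (a ⊔ b) = infClosure (f a ∪ f b)) →
      Representable L ∧ Representable Lᵒᵈ) := by
  have key : ∀ (L : Type) [Lattice L] [Fintype L] [Nonempty L],
      NoDepCycle L → Representable L ∧ Representable Lᵒᵈ := by
    intro L _ _ _ hL
    let _ : BoundedOrder L := Fintype.toBoundedOrder L
    exact ⟨Representable.dual (representable_dual hL), representable_dual hL⟩
  exact ⟨key, fun L M _ _ _ _ _ f hf hcl hinf hsup =>
    key L (noDepCycle_of_subsemilattices f hf hinf hsup hcl)⟩

end Vale.Agent.Results.P183.BoundedLattices
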