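import Vale.Agent.P183.Sublattice

/-!
# P183: every finite 0,1-sublattice of a product of the lattices `L_K` is representable

`L_K` is the parallel sum of the Boolean lattice `2^K` and a one-element chain:
one element `p` complementary to every nonzero element of `2^K`, and a new top.
-/

namespace Vale.Agent.Results.P183.ParallelBooleanVariety

open Vale.Agent.P183

theorem result :
    (∀ (K : Type) [Fintype K] [Nonempty K], ∃ S : Sublattice (Setoid (Bool × K)),
      (∀ s, s ∈ S ↔ Allowed s) ∧ Representable S) ∧
    (∀ (L : Type) [Lattice L] [BoundedOrder L] [Fintype L] (ι : Type) [Fintype ι]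
      (K : ι → Type) [∀ i, Fintype (K i)] [∀ i, Nonempty (K i)]
      (f : BoundedLatticeHom L (∀ i, Setoid (Bool × K i))),
      Function.Injective f → (∀ l i, Allowed (f l i)) → Representable L) :=
  ⟨fun K _ _ => ⟨lK K, fun _ => Iff.rfl, lK_representable K⟩,
   fun _ _ _ _ _ _ K _ _ f hf hal => representable_of_embedding K f hf hal⟩

end Vale.Agent.Results.P183.ParallelBooleanVariety
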